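import Vale.Agent.P284.H650.T.Spec
import Vale.Agent.P284.H213.K.Core
import Vale.Agent.P284.H213.N.Fin
import Vale.Agent.P284.H338.IndQ
import Vale.Agent.P284.H15.T.LimF

/-!
# P284 (helper608), T3⁺, (I3): the case `q = 0`

`Kazhdan.toSubgroup`: subgroups of finite index of groups with property (T) have property (T).
-/

open scoped Manifold ContDiff Topology InnerProductSpace
open Filter Set Metric

noncomputable section

namespace Vale.Agent.P284.H608.T

open Vale.Agent.P272.K Vale.Agent.P284.H894 Vale.Agent.P284.H894.G Vale.Agent.P284.H894.V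
  Vale.Agent.P284.H894.W Vale.Agent.P284.H573 Vale.Agent.P284.H213.Grp Vale.Agent.P284.H213.Q
  Vale.Agent.P284.H619 Vale.Agent.P284.H378 Vale.Agent.P284.H998 Vale.Agent.P284.H395
  Vale.Agent.P284.H837 Vale.Agent.P284.H625 Vale.Agent.P284.H501.Core Vale.Agent.P284.H501.T
  Vale.Agent.P284.H119.Kaz Vale.Agent.P284.H551 Vale.Agent.P284.H248 Vale.Agent.P284.H213.K

/-- groups with a normal subgroup of finite index without property (T) -/
theorem not_kazhdan_of_normal {Γ : Type} [Group Γ] (K : Subgroup Γ) [K.Normal] [K.FiniteIndex]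
    (h : ¬ Kazhdan K) : ¬ Kazhdan Γ := by
  rintro ⟨S, ε, hε, h'⟩
  haveI : Finite (Γ ⧸ K) := inferInstance
  obtain ⟨H, i1, i2, i3, π, ξ, h1, h2, h3⟩ :=
    H338.Ind.exists_rep (K := K) H338.Ind.folner_finite h (S : Set Γ) S.finite_toSet hε
  obtain ⟨η, hη, hη'⟩ := h' H π ξ h1 fun s hs => h2 s hs
  exact hη (h3 η fun k _ => hη' k)

/-- **subgroups of finite index of groups with property (T) have property (T)** -/
theorem kazhdan_subgroup {Γ : Type} [Group Γ] (h : Kazhdan Γ) (K : Subgroup Γ) [K.FiniteIndex] :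
    Kazhdan K := by
  haveI : K.normalCore.FiniteIndex := inferInstance
  have h1 : Kazhdan K.normalCore := by
    by_contra hc
    exact not_kazhdan_of_normal K.normalCore hc h
  haveI : (K.normalCore.subgroupOf K).FiniteIndex := inferInstance
  exact Kazhdan.of_finiteIndex (K.normalCore.subgroupOf K)
    (h1.of_equiv (Subgroup.subgroupOfEquivOfLe K.normalCore_le).symm)

/-- finite dimensional representations of `Γ` have finite range if they have finite range on a subgroup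
of finite index -/
theorem finRep_of_in {Γ : Type} [Group Γ] {G : Subgroup Γ} [G.FiniteIndex]
    (h : H213.G.FinRepIn Γ G) : H573.DK.FinRep Γ := by
  intro V _ _ _ ρ
  haveI : Finite (Γ ⧸ G) := inferInstance
  have h1 : (⋃ a : Γ ⧸ G, (fun x => ρ a.out * x) '' (ρ '' (G : Set Γ))).Finite :=
    Set.finite_iUnion fun a => (h V ρ).image _
  refine h1.subset ?_
  rintro _ ⟨g, rfl⟩
  refine Set.mem_iUnion.2 ⟨(g : Γ ⧸ G), ρ ((g : Γ ⧸ G).out⁻¹ * g), ⟨_, ?_, rfl⟩, ?_⟩
  · exact QuotientGroup.eq.1 (QuotientGroup.out_eq' (g : Γ ⧸ G))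
  · show ρ (g : Γ ⧸ G).out * ρ ((g : Γ ⧸ G).out⁻¹ * g) = ρ g
    rw [← map_mul, mul_inv_cancel_left]

/-- the core for `q = 0` -/
theorem core0V {n : ℕ} {X : Type}
    [TopologicalSpace X] [T2Space X] [CompactSpace X] [ConnectedSpace X]
    [ChartedSpace (Cm n) X] [IsManifold 𝓘(ℂ, Cm n) ω X]
    (hX : H837.N.NoV n X) {w : Chart n X → Cm n → Matrix (Fin n) (Fin n) ℂ} (hw : IsKahler w)
    {E Γ : Type} [TopologicalSpace E] [ConnectedSpace E] [Group Γ] [MulAction Γ E]
    {p : E → X} (hG : IsGalois Γ p) (hfr : H573.DK.FinRep Γ) :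
    ¬ Lim0Concl (n := n) (Γ := Γ) p := by
  rintro ⟨W', i1', i2', i3', π', Θ', u', hΘ', hπ', hpot', hb', hne'⟩
  obtain ⟨W, i1, i2, i3, π, Θ, u, hΘ, hπ, hpot, hb, hne, hspan⟩ :=
    exists_res0 hG.cov (fun g y => ((hG.orb y (g • y)).2 ⟨g, rfl⟩).symm) hΘ' hπ' hpot' hb' hne'
  set F : E → Cm 0 := fun _ => 0 with hF
  obtain ⟨r, m, H, j1, j2, j3, v, U, N, 𝒢, ⟨y, hy⟩, hL⟩ :=
    leaf0_of H812.NSF.ns2 hw hG hfr hΘ hπ hpot hb hne F
  obtain ⟨C, -, -, -, -⟩ := exists_eCoc hw hG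
  have hfg : Group.FG Γ := H639.V.fg_of_coc C
  refine hX E Γ p hG 0 F (fun y e he => ⟨fun _ => 0, Eventually.of_forall fun _ => rfl,
    analyticAt_const⟩) (H837.N.aff_of_trans (c := fun _ => 0) fun g y => by simp [hF])
    H (0 + (r + 1)) m (by omega) hL.m_pos v hL.form
    (fun g => ⟨U g, fun y e he ξ => hL.equi g y e he ξ⟩) (nff_of_leaf hL hy) ?_
  exact H378.T.lfin0 hG hfg hfr (t := 0) (vpot0 hΘ hpot F 0) (vequi0 hπ hb F 0 ⊤) hspan hL

/-- **(I3)** -/
theorem zeroStmt : H650.T.ZeroStmt H837.N.noVC := by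
  intro n X _ _ _ _ _ _ hX w E Γ _ _ _ _ p F G K A c hS hK
  have hKG : K = G := by
    ext g
    rw [hS.ker g]
    exact ⟨fun h => h.1, fun h => ⟨h, Subsingleton.elim _ _⟩⟩
  subst hKG
  haveI := hS.dat.normal
  haveI := hS.dat.fi
  exact core0V hX hS.kah hS.gal (finRep_of_in hS.fr)
    (H15.T.limK n X w hS.kah E Γ p hS.gal (not_kazhdan_of_normal K hK))

end Vale.Agent.P284.H608.T
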